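import Crest.Agent.X262.Nc29.Dat

/-!
# Row 262, G4 / CERT (helper29), part 3: `noLine`, `noConic`
-/

set_option autoImplicit false

noncomputable section

namespace Crest.Agent.X262.Nc29

open Crest.Agent.X262.Cert63 Crest.Agent.X262.Pf19 IsLocalRing Module

section Ring

variable {R : Type} [CommRing R]

/-- `ω_r (y, e_c)` -/
def ml (y : ℕ → R) (r c : ℕ) : R :=
  oz r 0 (c % 6) * y 0 + oz r 1 (c % 6) * y 1 + (oz r 2 (c % 6) * y 2 + oz r 3 (c % 6) * y 3) +
    (oz r 4 (c % 6) * y 4 + oz r 5 (c % 6) * y 5)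

/-- `ω_r (k_m, k_n)` -/
def mk (a b : ℕ → R) (i j r m n : ℕ) : R :=
  oz r m n - oz r m i * a n - oz r m j * b n - oz r i n * a m - oz r j n * b m +
    oz r i i * (a m * a n) + oz r i j * (a m * b n) + oz r j i * (b m * a n) + oz r j j * (b m * b n)

/-- `ω_r (k_m, k_n)` -/
def mc (a b : ℕ → R) (i j r c : ℕ) : R := mk a b i j r (c / 6 % 6) (c % 6)

theorem oz_row {r : ℕ} (h : 6 ≤ r) (i j : ℕ) : oz r i j = 0 := by
  rw [oz, List.getD_eq_default tab _ h]
  rfl

variable {x : ℕ → R}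

theorem ev_tm (hq : ((100 + 1 : ℕ) : R) = 0) (z : ℤ) (e : E) : (tm z e).ev x = z * e.ev x := by
  unfold tm
  rcases h : Nat.beq (Int.natAbs z) 0 with _ | _
  · rw [cond_false, E.ev_mul', ev_zm hq]
  · rw [cond_true, Int.natAbs_eq_zero.1 (Nat.eq_of_beq_eq_true h)]
    simp

theorem ev_sv {i m t : ℕ} (h : m < i → x t = 0) : (sv i m t).ev x = x t := by
  unfold sv
  rcases h1 : Nat.ble i m with _ | _
  · rw [cond_false, h (not_le.1 fun h2 => by simp [Nat.ble_eq_true_of_le h2] at h1)]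
    simp
  · rfl

theorem ev_su {i m : ℕ} (h : m < i → x m = 0) (h' : x i = 1) : (su i m).ev x = x m := by
  unfold su
  rcases h1 : Nat.beq i m with _ | _
  · exact ev_sv h
  · rw [cond_true, ← Nat.eq_of_beq_eq_true h1, h']
    simp

theorem Ct.false [Nontrivial R] (hq : ((100 + 1 : ℕ) : R) = 0) {c : Ct} {r : ℕ}
    {P : ℤ → ℕ → ℕ → E} (hc : c.ok r P = true) {M : ℕ → ℕ → R}
    (hP : ∀ s r c, (P s r c).ev x = s * M r c) (h : Rk3 M) : False :=
  false_of_cm (x := x) (fun r c => by rw [hP]; simp) (fun r c => by rw [hP]; simp) h hc hq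

theorem lin_false [Nontrivial R] (hq : ((100 + 1 : ℕ) : R) = 0) (i : Fin 6)
    (h : ∀ m < i.val, x m = 0) (h' : x i = 1) : ¬ Rk3 (ml x) := fun h1 => by
  obtain ⟨c, hc⟩ := ok_l i
  refine Ct.false (x := x) hq hc (fun s r c => ?_) h1
  simp only [pl, ml, E.ev_add', ev_tm hq, ev_su (h _) h', Int.cast_mul]
  ring

theorem con_false [Nontrivial R] (hq : ((100 + 1 : ℕ) : R) = 0) {i j : Fin 6} (hij : i < j)
    {a b : ℕ → R} (ha : ∀ m < i.val, a m = 0) (hb : ∀ m < j.val, b m = 0) :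
    ¬ Rk3 (mc a b i j) := fun h1 => by
  obtain ⟨c, hc⟩ := ok_c i j hij
  let x : ℕ → R := fun t => if t < 6 then a t else b (t - 6)
  have e1 : ∀ t, (sv i (t % 6) (t % 6)).ev x = a (t % 6) := fun t => by
    have : x (t % 6) = a (t % 6) := if_pos (Nat.mod_lt _ (by norm_num))
    rw [ev_sv fun h => this.trans (ha _ h), this]
  have e2 : ∀ t, (sv j t (6 + t)).ev x = b t := fun t => by
    have : x (6 + t) = b t := (if_neg (by omega)).trans (by rw [Nat.add_sub_cancel_left])
    rw [ev_sv fun h => this.trans (hb _ h), this]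
  refine Ct.false (x := x) hq hc (fun s r c => ?_) h1
  simp only [pc, pk, mc, mk, E.ev_add', E.ev_mul', ev_tm hq, ev_zm hq, e1, e2, Int.cast_mul,
    Int.cast_neg]
  ring

end Ring

theorem rk_le {U : Type} [AddCommGroup U] [Module ℂ U] (T : (Fin 6 → ℂ) →ₗ[ℂ] U)
    {u : Fin 3 → Fin 6 → ℂ} (hu : LinearIndependent ℂ u) (h : ∀ l, T (u l) = 0) :
    finrank ℂ (LinearMap.range T) ≤ 3 := by
  have h1 := T.finrank_range_add_finrank_ker
  have h2 : finrank ℂ (Submodule.span ℂ (Set.range u)) ≤ finrank ℂ (LinearMap.ker T) :=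
    Submodule.finrank_mono (Submodule.span_le.2 (Set.range_subset_iff.2 h))
  rw [finrank_span_eq_card hu, Fintype.card_fin] at h2
  rw [finrank_fintype_fun_eq_card, Fintype.card_fin] at h1
  omega

theorem w_ee (r m n : Fin 6) :
    w om (Pi.single m (1 : ℂ)) (Pi.single n 1) r = oz r m n := by
  simp [w_apply, Pi.single_apply, om]

/-- **no line** -/
theorem noLine : NoLine ℂ om := fun u h1 h2 hu => by
  obtain ⟨V, hV⟩ := exists_pl (p := 100 + 1) (by norm_num)
  obtain ⟨i, y, hi, hy, h0⟩ := exists_fst V Fin.val (hu.ne_zero 0)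
  let Y : ℕ → V := fun m => y (Fin.ofNat 6 m)
  have hY : ∀ m : Fin 6, Y m = y m := fun m => congrArg y (Fin.ofNat_val_eq_self m)
  have h3 : Rk3 fun r c => V.subtype (ml Y r c) := by
    refine rk3_of (LinearMap.range (w om (u 0))) (rk_le _ hu fun l => ?_) (fun c => ?_)
      fun r c hr => by simp [ml, oz_row hr]
    · fin_cases l
      exacts [skew.self _, h1, h2]
    · refine ⟨(u 0 i)⁻¹ • Pi.single (Fin.ofNat 6 c) 1, funext fun r => ?_⟩
      have e : ∀ m : Fin 6, ((Y m : V) : ℂ) = u 0 m / u 0 i := fun m => by rw [hY, hy]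
      have e0 : ((Y 0 : V) : ℂ) = _ := e 0
      have e1 : ((Y 1 : V) : ℂ) = _ := e 1
      have e2 : ((Y 2 : V) : ℂ) = _ := e 2
      have e3 : ((Y 3 : V) : ℂ) = _ := e 3
      have e4 : ((Y 4 : V) : ℂ) = _ := e 4
      have e5 : ((Y 5 : V) : ℂ) = _ := e 5
      simp [w_apply, Pi.single_apply, om, ml, Fin.sum_univ_six, e0, e1, e2, e3, e4, e5]
      ring
  refine lin_false hV i (x := fun m => residue V (Y m)) (fun m hm => ?_) ?_ ?_
  · exact h0 _ (by rwa [Fin.val_ofNat, Nat.mod_eq_of_lt (hm.trans i.2)])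
  · rw [hY, show y i = 1 from Subtype.ext (by rw [hy, div_self hi]; rfl), map_one]
  · convert h3.sp V.subtype_injective (residue V) using 3
    simp only [ml, map_add, map_mul, map_intCast]

theorem exists_quot {k : Fin 4 → Fin 6 → ℂ} (hk : LinearIndependent ℂ k) :
    ∃ α β : Fin 6 → ℂ, wd α β ≠ 0 ∧ ∀ m i j : Fin 6, ∀ a b : ℂ, α m - a * α i - b * α j = 0 →
      β m - a * β i - b * β j = 0 → (Pi.single m 1 - a • Pi.single i 1 - b • Pi.single j 1 :
        Fin 6 → ℂ) ∈ Submodule.span ℂ (Set.range k) := by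
  set K := Submodule.span ℂ (Set.range k)
  have h1 := K.finrank_quotient_add_finrank
  rw [finrank_span_eq_card hk, finrank_fintype_fun_eq_card, Fintype.card_fin,
    Fintype.card_fin] at h1
  let e : ((Fin 6 → ℂ) ⧸ K) ≃ₗ[ℂ] ℂ × ℂ := LinearEquiv.ofFinrankEq _ _ (by simp; omega)
  let T : (Fin 6 → ℂ) →ₗ[ℂ] ℂ × ℂ := e.toLinearMap ∘ₗ K.mkQ
  have hT : Function.Surjective T := e.surjective.comp K.mkQ_surjective
  refine ⟨fun m => (T (Pi.single m 1)).1, fun m => (T (Pi.single m 1)).2, fun h => ?_,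
    fun m i j a b h2 h3 => ?_⟩
  · obtain ⟨s, hs⟩ := hT (1, 0)
    obtain ⟨t, ht⟩ := hT (0, 1)
    have h2 : (T s).1 * (T t).2 - (T s).2 * (T t).1 = 0 := by
      rw [pi_eq_sum_univ' s, pi_eq_sum_univ' t]
      simp only [map_sum, map_smul, Prod.fst_sum, Prod.snd_sum, Prod.smul_fst, Prod.smul_snd,
        smul_eq_mul, Finset.sum_mul_sum, ← Finset.sum_sub_distrib]
      refine Finset.sum_eq_zero fun m _ => Finset.sum_eq_zero fun n _ => ?_
      have h3 : (T (Pi.single m 1)).1 * (T (Pi.single n 1)).2 -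
        (T (Pi.single n 1)).1 * (T (Pi.single m 1)).2 = 0 := congrFun h (m, n)
      linear_combination s m * t n * h3
    simp [hs, ht] at h2
  · rw [← Submodule.Quotient.mk_eq_zero, ← e.map_eq_zero_iff]
    change T _ = 0
    rw [map_sub, map_sub, map_smul, map_smul]
    exact Prod.ext h2 h3

theorem w_mem {k : Fin 4 → Fin 6 → ℂ} {u v : Fin 6 → ℂ} (hu : u ∈ Submodule.span ℂ (Set.range k))
    (hv : v ∈ Submodule.span ℂ (Set.range k)) :
    w om u v ∈ LinearMap.range (Fintype.linearCombination ℂ (cols om k)) := by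
  set W := LinearMap.range (Fintype.linearCombination ℂ (cols om k))
  have h1 : ∀ j, cols om k j ∈ W := fun j => ⟨Pi.single j 1, by simp⟩
  have h2 : ∀ {s t}, w om (k s) (k t) ∈ W → w om (k t) (k s) ∈ W := fun h => by
    rw [skew.swap]; exact W.neg_mem h
  have h3 : ∀ s, w om (k s) (k s) ∈ W := fun s => by rw [skew.self]; exact W.zero_mem
  have h4 : ∀ s t, w om (k s) (k t) ∈ W := fun s t => by
    fin_cases s <;> fin_cases t
    exacts [h3 _, h1 0, h1 1, h1 2, h2 (h1 0), h3 _, h1 3, h1 4, h2 (h1 1), h2 (h1 3), h3 _, h1 5,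
      h2 (h1 2), h2 (h1 4), h2 (h1 5), h3 _]
  obtain ⟨a, rfl⟩ := (Submodule.mem_span_range_iff_exists_fun ℂ).1 hu
  obtain ⟨b, rfl⟩ := (Submodule.mem_span_range_iff_exists_fun ℂ).1 hv
  simp only [map_sum, map_smul, LinearMap.sum_apply, LinearMap.smul_apply]
  exact W.sum_mem fun t _ => W.smul_mem _ (W.sum_mem fun s _ => W.smul_mem _ (h4 s t))

/-- **no conic** -/
theorem noConic : NoConic ℂ om := fun k hk β h1 hβ => by
  obtain ⟨V, hV⟩ := exists_pl (p := 100 + 1) (by norm_num)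
  obtain ⟨p, q, h2, h3⟩ := exists_quot hk
  obtain ⟨⟨i, j⟩, y, hi, hy, h0⟩ := exists_fst V (fun m : Fin 6 × Fin 6 => 6 * m.1.val + m.2.val) h2
  have hij : i < j := by
    rcases lt_trichotomy i j with h | rfl | h
    · exact h
    · exact absurd (sub_self _) hi
    · have h4 : y (j, i) = -1 := Subtype.ext (by
        rw [hy, div_eq_iff hi]
        simp [wd])
      have h5 := h0 (j, i) (by have := i.2; have := j.2; have : j.val < i.val := h; dsimp only; omega)
      simp [h4] at h5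
  let a : ℕ → V := fun m => y (Fin.ofNat 6 m, j)
  let b : ℕ → V := fun m => y (i, Fin.ofNat 6 m)
  have h4 : ∀ m : Fin 6, (Pi.single m 1 - (a m : ℂ) • Pi.single i 1 - (b m : ℂ) • Pi.single j 1 :
      Fin 6 → ℂ) ∈ Submodule.span ℂ (Set.range k) := fun m => by
    have hi' : (p i * q j - p j * q i) * (p i * q j - p j * q i)⁻¹ = 1 := mul_inv_cancel₀ hi
    refine h3 m i j _ _ ?_ ?_ <;> simp only [a, b, Fin.ofNat_val_eq_self, hy, wd]
    · linear_combination -p m * hi'
    · linear_combination -q m * hi'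
  have h5 : Rk3 fun r c => V.subtype (mc a b i j r c) := by
    refine rk3_of _ (rk_le (Fintype.linearCombination ℂ (cols om k)) hβ h1) (fun c => ?_)
      fun r c hr => by simp [mc, mk, oz_row hr]
    convert w_mem (h4 (Fin.ofNat 6 (c / 6))) (h4 (Fin.ofNat 6 c)) using 1
    ext r
    simp only [map_sub, map_smul, LinearMap.sub_apply, LinearMap.smul_apply, Pi.sub_apply,
      Pi.smul_apply, w_ee, smul_eq_mul, mc, mk, map_add, map_mul, map_intCast, Fin.val_ofNat,
      ValuationSubring.coe_subtype]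
    ring
  refine con_false hV hij (a := fun m => residue V (a m)) (b := fun m => residue V (b m))
    (fun m hm => h0 _ ?_) (fun m hm => h0 _ ?_) ?_
  · rw [Fin.val_ofNat, Nat.mod_eq_of_lt (hm.trans i.2)]
    dsimp only
    omega
  · rw [Fin.val_ofNat, Nat.mod_eq_of_lt (hm.trans j.2)]
    dsimp only
    omega
  · convert h5.sp V.subtype_injective (residue V) using 3
    simp only [mc, mk, map_add, map_sub, map_mul, map_intCast]

end Crest.Agent.X262.Nc29
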