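import Crest.Agent.X262.Pf19.Pf

/-!
# Row 262, G4 / CERT (helper29), part 0: the six skew forms of the example
-/

set_option autoImplicit false

namespace Crest.Agent.X262.Nc29

open Crest.Agent.X262.Pf19

/-- the matrices -/
def tab : List (List (List ℤ)) :=
  [[[0, 1, 0, 0, 0, 0], [-1, 0, 0, 0, 9, 0], [0, 0, 0, -9, 0, 0], [0, 0, 9, 0, -2, -8], [0, -9, 0, 2, 0, -17], [0, 0, 0, 8, 17, 0]],
   [[0, 0, 1, 0, 0, 0], [0, 0, 0, 0, -6, 0], [-1, 0, 0, 6, 0, 0], [0, 0, -6, 0, -1, 4], [0, 6, 0, 1, 0, 10], [0, 0, 0, -4, -10, 0]],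
   [[0, 0, 0, 0, 1, 0], [0, 0, 0, -1, 6, 0], [0, 0, 0, -6, 0, 0], [0, 1, 6, 0, 1, -4], [-1, -6, 0, -1, 0, -10], [0, 0, 0, 4, 10, 0]],
   [[0, 0, 0, 0, 0, 1], [0, 0, 0, 0, -14, 0], [0, 0, 0, 13, 0, 0], [0, 0, -13, 0, 2, 11], [0, 14, 0, -2, 0, 25], [-1, 0, 0, -11, -25, 0]],
   [[0, 0, 0, 0, 0, 0], [0, 0, 1, 0, 1, 0], [0, -1, 0, -1, 0, 0], [0, 0, 1, 0, -1, -1], [0, -1, 0, 1, 0, -2], [0, 0, 0, 1, 2, 0]],
   [[0, 0, 0, 0, 0, 0], [0, 0, 0, 0, -4, 1], [0, 0, 0, 4, -1, 0], [0, 0, -4, 0, 1, 4], [0, 4, 1, -1, 0, 6], [0, -1, 0, -4, -6, 0]]]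

/-- the coefficients -/
def oz (a i j : ℕ) : ℤ := ((tab.getD a []).getD i []).getD j 0

/-- the six skew forms -/
noncomputable def om : Om := fun a i j => (oz a i j : ℂ)

theorem oz_skew : ∀ a i j : Fin 6, oz a j i = -oz a i j := by decide

theorem skew : Skew om := fun a i j => by rw [om, om, oz_skew, Int.cast_neg]

end Crest.Agent.X262.Nc29
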