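import Crest.Agent.X262.Nc29.Defs
import Crest.Agent.X262.Cert63.Kit

/-!
# Row 262, G4 / CERT (helper29), part 1: certificates for "rank at least four"

* `d4`, `m4`      : minors of size four and their expressions; `rk3_of`;
* `dc`, `Mn`, `cm` : packed multipliers, `false_of_cm`;
* `exists_pl`, `exists_fst` : a place over `p`, the first coordinate of maximal value.
-/

set_option autoImplicit false

noncomputable section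

namespace Crest.Agent.X262.Nc29

open Crest.Agent.X262.Cert63

section Det

variable {R : Type} [CommRing R] (M : ℕ → ℕ → R)

/-- minors of size two -/
def d2 (r₁ r₂ c₁ c₂ : ℕ) : R := M r₁ c₁ * M r₂ c₂ - M r₁ c₂ * M r₂ c₁

/-- minors of size three -/
def d3 (r₁ r₂ r₃ c₁ c₂ c₃ : ℕ) : R :=
  M r₁ c₁ * d2 M r₂ r₃ c₂ c₃ - M r₁ c₂ * d2 M r₂ r₃ c₁ c₃ + M r₁ c₃ * d2 M r₂ r₃ c₁ c₂

/-- minors of size four -/
def d4 (r₁ r₂ r₃ r₄ c₁ c₂ c₃ c₄ : ℕ) : R :=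
  M r₁ c₁ * d3 M r₂ r₃ r₄ c₂ c₃ c₄ - M r₁ c₂ * d3 M r₂ r₃ r₄ c₁ c₃ c₄ +
    (M r₁ c₃ * d3 M r₂ r₃ r₄ c₁ c₂ c₄ - M r₁ c₄ * d3 M r₂ r₃ r₄ c₁ c₂ c₃)

/-- all minors of size four vanish -/
def Rk3 : Prop := ∀ r₁ r₂ r₃ r₄ c₁ c₂ c₃ c₄, d4 M r₁ r₂ r₃ r₄ c₁ c₂ c₃ c₄ = 0

variable {M}

theorem map_d4 {S : Type} [CommRing S] (φ : R →+* S) (r₁ r₂ r₃ r₄ c₁ c₂ c₃ c₄ : ℕ) :
    φ (d4 M r₁ r₂ r₃ r₄ c₁ c₂ c₃ c₄) = d4 (fun r c => φ (M r c)) r₁ r₂ r₃ r₄ c₁ c₂ c₃ c₄ := by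
  simp only [d4, d3, d2, map_add, map_sub, map_mul]

theorem Rk3.sp {S T : Type} [CommRing S] [CommRing T] {φ : R →+* S} (hφ : Function.Injective φ)
    (ψ : R →+* T) (h : Rk3 fun r c => φ (M r c)) : Rk3 fun r c => ψ (M r c) :=
  fun r₁ r₂ r₃ r₄ c₁ c₂ c₃ c₄ => by
    rw [← map_d4, hφ ((map_d4 φ ..).trans ((h ..).trans (map_zero φ).symm)), map_zero]

theorem rk3_of {M : ℕ → ℕ → ℂ} (W : Submodule ℂ (Fin 6 → ℂ)) (hW : Module.finrank ℂ W ≤ 3)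
    (h : ∀ c, (fun r : Fin 6 => M r c) ∈ W) (h' : ∀ r c, 6 ≤ r → M r c = 0) : Rk3 M := by
  intro r₁ r₂ r₃ r₄ c₁ c₂ c₃ c₄
  have h1 : ¬ LinearIndependent ℂ fun t : Fin 4 => (⟨_, h (![c₁, c₂, c₃, c₄] t)⟩ : W) := fun h1 => by
    have := h1.fintype_card_le_finrank
    rw [Fintype.card_fin] at this
    omega
  obtain ⟨g, h2, t, ht⟩ := Fintype.not_linearIndependent_iff.1 h1
  have h3 : ∀ r, g 0 * M r c₁ + g 1 * M r c₂ + g 2 * M r c₃ + g 3 * M r c₄ = 0 := fun r => by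
    by_cases hr : r < 6
    · simpa [Fin.sum_univ_four] using congrFun (congrArg Subtype.val h2) ⟨r, hr⟩
    · simp [h' r _ (not_lt.1 hr)]
  refine (mul_eq_zero.1 ?_).resolve_left ht
  have e1 := h3 r₁
  have e2 := h3 r₂
  have e3 := h3 r₃
  have e4 := h3 r₄
  fin_cases t
  · change g 0 * _ = 0
    linear_combination (norm := (simp only [d4, d3, d2]; ring1)) (d3 M r₂ r₃ r₄ c₂ c₃ c₄) * e1 - (d3 M r₁ r₃ r₄ c₂ c₃ c₄) * e2 +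
      (d3 M r₁ r₂ r₄ c₂ c₃ c₄) * e3 - (d3 M r₁ r₂ r₃ c₂ c₃ c₄) * e4
  · change g 1 * _ = 0
    linear_combination (norm := (simp only [d4, d3, d2]; ring1)) -(d3 M r₂ r₃ r₄ c₁ c₃ c₄) * e1 + (d3 M r₁ r₃ r₄ c₁ c₃ c₄) * e2 -
      (d3 M r₁ r₂ r₄ c₁ c₃ c₄) * e3 + (d3 M r₁ r₂ r₃ c₁ c₃ c₄) * e4
  · change g 2 * _ = 0
    linear_combination (norm := (simp only [d4, d3, d2]; ring1)) (d3 M r₂ r₃ r₄ c₁ c₂ c₄) * e1 - (d3 M r₁ r₃ r₄ c₁ c₂ c₄) * e2 +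
      (d3 M r₁ r₂ r₄ c₁ c₂ c₄) * e3 - (d3 M r₁ r₂ r₃ c₁ c₂ c₄) * e4
  · change g 3 * _ = 0
    linear_combination (norm := (simp only [d4, d3, d2]; ring1)) -(d3 M r₂ r₃ r₄ c₁ c₂ c₃) * e1 + (d3 M r₁ r₃ r₄ c₁ c₂ c₃) * e2 -
      (d3 M r₁ r₂ r₄ c₁ c₂ c₃) * e3 + (d3 M r₁ r₂ r₃ c₁ c₂ c₃) * e4

end Det

section Expr

variable (P N : ℕ → ℕ → E)

/-- expression of a minor; `P` are the entries, `N` their negatives -/
def m2 (r₁ r₂ c₁ c₂ : ℕ) : E := .add (.mul (P r₁ c₁) (P r₂ c₂)) (.mul (N r₁ c₂) (P r₂ c₁))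

/-- expression of a minor -/
def m3 (r₁ r₂ r₃ c₁ c₂ c₃ : ℕ) : E :=
  .add (.add (.mul (P r₁ c₁) (m2 P N r₂ r₃ c₂ c₃)) (.mul (N r₁ c₂) (m2 P N r₂ r₃ c₁ c₃)))
    (.mul (P r₁ c₃) (m2 P N r₂ r₃ c₁ c₂))

/-- expression of a minor -/
def m4 (r₁ r₂ r₃ r₄ c₁ c₂ c₃ c₄ : ℕ) : E :=
  .add (.add (.mul (P r₁ c₁) (m3 P N r₂ r₃ r₄ c₂ c₃ c₄)) (.mul (N r₁ c₂) (m3 P N r₂ r₃ r₄ c₁ c₃ c₄)))
    (.add (.mul (P r₁ c₃) (m3 P N r₂ r₃ r₄ c₁ c₂ c₄)) (.mul (N r₁ c₄) (m3 P N r₂ r₃ r₄ c₁ c₂ c₃)))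

/-- packed polynomials in `r` variables of degree `≤ d`, `b` bits for each coefficient -/
def dc (b r : ℕ) : ℕ → ℕ → E :=
  Nat.rec (fun _ n => E.n n)
    (fun j f d => Nat.rec (fun n => E.n n)
      (fun i g n => cond (Nat.beq (Nat.shiftRight n (Nat.mul b (bin j (Nat.succ i)))) 0)
        (f (Nat.succ i) n)
        (E.add (f (Nat.succ i) (Nat.mod n (Nat.shiftLeft 1 (Nat.mul b (bin j (Nat.succ i))))))
          (E.mul (E.v j) (g (Nat.shiftRight n (Nat.mul b (bin j (Nat.succ i)))))))) d) r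

/-- a minor with a multiplier -/
inductive Mn : Type
  | mk (r₁ r₂ r₃ r₄ c₁ c₂ c₃ c₄ n : ℕ) : Mn

/-- the combination of minors, plus one -/
def cm (D : ℕ → E) (l : List Mn) : E :=
  List.rec (E.n 1) (fun a _ e => Mn.rec (fun r₁ r₂ r₃ r₄ c₁ c₂ c₃ c₄ n =>
    E.add (E.mul (D n) (m4 P N r₁ r₂ r₃ r₄ c₁ c₂ c₃ c₄)) e) a) l

variable {P N} {R : Type} [CommRing R] {x : ℕ → R} {M : ℕ → ℕ → R}

theorem ev_m4 (hP : ∀ r c, (P r c).ev x = M r c) (hN : ∀ r c, (N r c).ev x = -M r c)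
    (r₁ r₂ r₃ r₄ c₁ c₂ c₃ c₄ : ℕ) :
    (m4 P N r₁ r₂ r₃ r₄ c₁ c₂ c₃ c₄).ev x = d4 M r₁ r₂ r₃ r₄ c₁ c₂ c₃ c₄ := by
  simp only [m4, m3, m2, d4, d3, d2, E.ev_add', E.ev_mul', hP, hN]
  ring

theorem false_of_cm [Nontrivial R] (hP : ∀ r c, (P r c).ev x = M r c)
    (hN : ∀ r c, (N r c).ev x = -M r c) (h : Rk3 M) {D : ℕ → E} {l : List Mn} {q w k : ℕ}
    {ds : List ℕ} (hc : (cm P N D l).okP q w k ds = true) (hq : ((q + 1 : ℕ) : R) = 0) : False := by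
  have h1 : ∀ l, (cm P N D l).ev x = 1 := fun l => by
    induction l with
    | nil => exact Nat.cast_one
    | cons a l ih =>
      obtain ⟨r₁, r₂, r₃, r₄, c₁, c₂, c₃, c₄, n⟩ := a
      change (D n).ev x * (m4 P N r₁ r₂ r₃ r₄ c₁ c₂ c₃ c₄).ev x + (cm P N D l).ev x = 1
      rw [ev_m4 hP hN, h, ih, mul_zero, zero_add]
  exact one_ne_zero ((h1 l).symm.trans (E.ev_of_okP hc hq x))

/-- an integer modulo `q + 1` -/
def zm (q : ℕ) (z : ℤ) : E := E.n (Int.toNat (Int.emod z (Int.ofNat (Nat.succ q))))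

theorem ev_zm {q : ℕ} (hq : ((q + 1 : ℕ) : R) = 0) (z : ℤ) : (zm q z).ev x = z := by
  have h1 : ((Int.toNat (z % ((q + 1 : ℕ) : ℤ)) : ℕ) : ℤ) = z % ((q + 1 : ℕ) : ℤ) :=
    Int.toNat_of_nonneg (Int.emod_nonneg _ (by positivity))
  change ((Int.toNat (z % ((q + 1 : ℕ) : ℤ)) : ℕ) : R) = z
  rw [← Int.cast_natCast, h1, Int.emod_def, Int.cast_sub, Int.cast_mul, Int.cast_natCast, hq,
    zero_mul, sub_zero]

end Expr

/-! ### places -/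

open IsLocalRing in
theorem exists_pl {p : ℕ} (hp : p.Prime) :
    ∃ V : ValuationSubring ℂ, (p : ResidueField V) = 0 := by
  have h1 : Ideal.span {(p : (⊥ : Subring ℂ))} ≠ ⊤ := fun h => by
    obtain ⟨⟨_, z, rfl⟩, hz⟩ := (Ideal.span_singleton_eq_top.1 h).exists_right_inv
    have h2 : (p : ℤ) * z = 1 :=
      Int.cast_injective (α := ℂ) (by simpa using congrArg Subtype.val hz)
    exact hp.one_lt.ne' (by exact_mod_cast Int.eq_one_of_mul_eq_one_right (by positivity) h2)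
  obtain ⟨V, -, h2⟩ := Ideal.image_subset_nonunits_valuationSubring _ h1
  refine ⟨V, ?_⟩
  rw [← map_natCast (residue V), residue_eq_zero_iff, ← ValuationSubring.coe_mem_nonunits_iff]
  exact h2 ⟨p, Ideal.subset_span rfl, by simp⟩

open IsLocalRing in
theorem exists_fst (V : ValuationSubring ℂ) {ι : Type} [Finite ι] (f : ι → ℕ) {z : ι → ℂ}
    (hz : z ≠ 0) : ∃ (i : ι) (y : ι → V), z i ≠ 0 ∧ (∀ j, (y j : ℂ) = z j / z i) ∧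
      ∀ j, f j < f i → residue V (y j) = 0 := by
  classical
  obtain ⟨j, hj⟩ := Function.ne_iff.1 hz
  have : Nonempty ι := ⟨j⟩
  have := Fintype.ofFinite ι
  obtain ⟨i₀, hi₀⟩ := Finite.exists_max fun j => V.valuation (z j)
  obtain ⟨i, hi, h1⟩ := (Finset.univ.filter fun i => ∀ j, V.valuation (z j) ≤
    V.valuation (z i)).exists_min_image f ⟨i₀, by simpa using hi₀⟩
  replace hi := (Finset.mem_filter.1 hi).2
  have h0 : 0 < V.valuation (z i) := (zero_lt_iff.2 ((map_ne_zero _).2 hj)).trans_le (hi j)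
  refine ⟨i, fun j => ⟨z j / z i, ?_⟩, (map_ne_zero _).1 h0.ne', fun _ => rfl, fun j h2 => ?_⟩
  · rw [← V.valuation_le_one_iff, map_div₀, div_le_one₀ h0]
    exact hi j
  · rw [residue_eq_zero_iff, ValuationSubring.valuation_lt_one_iff]
    change V.valuation (z j / z i) < 1
    rw [map_div₀, div_lt_one₀ h0]
    exact lt_of_not_ge fun h3 => h2.not_ge
      (h1 j (Finset.mem_filter.2 ⟨Finset.mem_univ _, fun l => (hi l).trans h3⟩))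

end Crest.Agent.X262.Nc29
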